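import Vale.Agent.P183.Mk7

/-!
# Every valid table is a relabelling of one of 53 tables
-/

namespace Vale.Agent.P183

/-- The codes of the 53 seven element lattices. -/
def codes : List ℕ :=
  [0, 1, 3, 7, 15, 18, 19, 20, 22, 23, 28, 30, 31, 55, 58, 63, 127, 164, 165, 167, 168, 172, 173, 175, 182, 183, 184, 188, 190, 191, 204, 205, 207, 237, 239, 255, 510, 511, 840, 841, 843, 847, 858, 859, 860, 862, 863, 895, 1004, 1005, 1007, 1022, 1023]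

/-- For each valid code: the code of the isomorphic listed table, a relabelling and its inverse. -/
def relabel : List (ℕ × ℕ × (Fin 7 → Fin 7) × (Fin 7 → Fin 7)) :=
  [(0, 0, ![0, 1, 2, 3, 4, 5, 6], ![0, 1, 2, 3, 4, 5, 6]),
   (1, 1, ![0, 1, 2, 3, 4, 5, 6], ![0, 1, 2, 3, 4, 5, 6]),
   (2, 1, ![0, 1, 3, 2, 4, 5, 6], ![0, 1, 3, 2, 4, 5, 6]),
   (3, 3, ![0, 1, 2, 3, 4, 5, 6], ![0, 1, 2, 3, 4, 5, 6]),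
   (4, 1, ![0, 1, 3, 4, 2, 5, 6], ![0, 1, 4, 2, 3, 5, 6]),
   (5, 3, ![0, 1, 2, 4, 3, 5, 6], ![0, 1, 2, 4, 3, 5, 6]),
   (6, 3, ![0, 1, 4, 2, 3, 5, 6], ![0, 1, 3, 4, 2, 5, 6]),
   (7, 7, ![0, 1, 2, 3, 4, 5, 6], ![0, 1, 2, 3, 4, 5, 6]),
   (8, 1, ![0, 1, 3, 4, 5, 2, 6], ![0, 1, 5, 2, 3, 4, 6]),
   (9, 3, ![0, 1, 2, 4, 5, 3, 6], ![0, 1, 2, 5, 3, 4, 6]),
   (10, 3, ![0, 1, 4, 2, 5, 3, 6], ![0, 1, 3, 5, 2, 4, 6]),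
   (11, 7, ![0, 1, 2, 3, 5, 4, 6], ![0, 1, 2, 3, 5, 4, 6]),
   (12, 3, ![0, 1, 4, 5, 2, 3, 6], ![0, 1, 4, 5, 2, 3, 6]),
   (13, 7, ![0, 1, 2, 5, 3, 4, 6], ![0, 1, 2, 4, 5, 3, 6]),
   (14, 7, ![0, 1, 5, 2, 3, 4, 6], ![0, 1, 3, 4, 5, 2, 6]),
   (15, 15, ![0, 1, 2, 3, 4, 5, 6], ![0, 1, 2, 3, 4, 5, 6]),
   (16, 1, ![0, 3, 1, 2, 4, 5, 6], ![0, 2, 3, 1, 4, 5, 6]),
   (18, 18, ![0, 1, 2, 3, 4, 5, 6], ![0, 1, 2, 3, 4, 5, 6]),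
   (19, 19, ![0, 1, 2, 3, 4, 5, 6], ![0, 1, 2, 3, 4, 5, 6]),
   (20, 20, ![0, 1, 2, 3, 4, 5, 6], ![0, 1, 2, 3, 4, 5, 6]),
   (22, 22, ![0, 1, 2, 3, 4, 5, 6], ![0, 1, 2, 3, 4, 5, 6]),
   (23, 23, ![0, 1, 2, 3, 4, 5, 6], ![0, 1, 2, 3, 4, 5, 6]),
   (24, 20, ![0, 1, 2, 3, 5, 4, 6], ![0, 1, 2, 3, 5, 4, 6]),
   (26, 22, ![0, 1, 2, 3, 5, 4, 6], ![0, 1, 2, 3, 5, 4, 6]),
   (27, 23, ![0, 1, 2, 3, 5, 4, 6], ![0, 1, 2, 3, 5, 4, 6]),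
   (28, 28, ![0, 1, 2, 3, 4, 5, 6], ![0, 1, 2, 3, 4, 5, 6]),
   (30, 30, ![0, 1, 2, 3, 4, 5, 6], ![0, 1, 2, 3, 4, 5, 6]),
   (31, 31, ![0, 1, 2, 3, 4, 5, 6], ![0, 1, 2, 3, 4, 5, 6]),
   (32, 1, ![0, 3, 1, 4, 2, 5, 6], ![0, 2, 4, 1, 3, 5, 6]),
   (34, 20, ![0, 1, 2, 4, 3, 5, 6], ![0, 1, 2, 4, 3, 5, 6]),
   (36, 18, ![0, 1, 2, 4, 3, 5, 6], ![0, 1, 2, 4, 3, 5, 6]),
   (37, 19, ![0, 1, 2, 4, 3, 5, 6], ![0, 1, 2, 4, 3, 5, 6]),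
   (38, 22, ![0, 1, 2, 4, 3, 5, 6], ![0, 1, 2, 4, 3, 5, 6]),
   (39, 23, ![0, 1, 2, 4, 3, 5, 6], ![0, 1, 2, 4, 3, 5, 6]),
   (40, 20, ![0, 1, 2, 5, 3, 4, 6], ![0, 1, 2, 4, 5, 3, 6]),
   (42, 28, ![0, 1, 2, 4, 3, 5, 6], ![0, 1, 2, 4, 3, 5, 6]),
   (44, 22, ![0, 1, 2, 5, 3, 4, 6], ![0, 1, 2, 4, 5, 3, 6]),
   (45, 23, ![0, 1, 2, 5, 3, 4, 6], ![0, 1, 2, 4, 5, 3, 6]),
   (46, 30, ![0, 1, 2, 4, 3, 5, 6], ![0, 1, 2, 4, 3, 5, 6]),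
   (47, 31, ![0, 1, 2, 4, 3, 5, 6], ![0, 1, 2, 4, 3, 5, 6]),
   (48, 3, ![0, 4, 1, 2, 3, 5, 6], ![0, 2, 3, 4, 1, 5, 6]),
   (50, 22, ![0, 2, 1, 3, 4, 5, 6], ![0, 2, 1, 3, 4, 5, 6]),
   (52, 22, ![0, 2, 1, 4, 3, 5, 6], ![0, 2, 1, 4, 3, 5, 6]),
   (55, 55, ![0, 1, 2, 3, 4, 5, 6], ![0, 1, 2, 3, 4, 5, 6]),
   (56, 28, ![0, 2, 1, 4, 5, 3, 6], ![0, 2, 1, 5, 3, 4, 6]),
   (58, 58, ![0, 1, 2, 3, 4, 5, 6], ![0, 1, 2, 3, 4, 5, 6]),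
   (60, 58, ![0, 1, 2, 4, 3, 5, 6], ![0, 1, 2, 4, 3, 5, 6]),
   (63, 63, ![0, 1, 2, 3, 4, 5, 6], ![0, 1, 2, 3, 4, 5, 6]),
   (64, 1, ![0, 3, 1, 4, 5, 2, 6], ![0, 2, 5, 1, 3, 4, 6]),
   (66, 20, ![0, 1, 2, 4, 5, 3, 6], ![0, 1, 2, 5, 3, 4, 6]),
   (68, 20, ![0, 1, 2, 5, 4, 3, 6], ![0, 1, 2, 5, 4, 3, 6]),
   (70, 28, ![0, 1, 2, 4, 5, 3, 6], ![0, 1, 2, 5, 3, 4, 6]),
   (72, 18, ![0, 1, 2, 4, 5, 3, 6], ![0, 1, 2, 5, 3, 4, 6]),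
   (73, 19, ![0, 1, 2, 4, 5, 3, 6], ![0, 1, 2, 5, 3, 4, 6]),
   (74, 22, ![0, 1, 2, 4, 5, 3, 6], ![0, 1, 2, 5, 3, 4, 6]),
   (75, 23, ![0, 1, 2, 4, 5, 3, 6], ![0, 1, 2, 5, 3, 4, 6]),
   (76, 22, ![0, 1, 2, 5, 4, 3, 6], ![0, 1, 2, 5, 4, 3, 6]),
   (77, 23, ![0, 1, 2, 5, 4, 3, 6], ![0, 1, 2, 5, 4, 3, 6]),
   (78, 30, ![0, 1, 2, 4, 5, 3, 6], ![0, 1, 2, 5, 3, 4, 6]),
   (79, 31, ![0, 1, 2, 4, 5, 3, 6], ![0, 1, 2, 5, 3, 4, 6]),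
   (80, 3, ![0, 4, 1, 2, 5, 3, 6], ![0, 2, 3, 5, 1, 4, 6]),
   (82, 22, ![0, 2, 1, 3, 5, 4, 6], ![0, 2, 1, 3, 5, 4, 6]),
   (84, 28, ![0, 2, 1, 4, 3, 5, 6], ![0, 2, 1, 4, 3, 5, 6]),
   (86, 58, ![0, 1, 2, 3, 5, 4, 6], ![0, 1, 2, 3, 5, 4, 6]),
   (88, 22, ![0, 2, 1, 4, 5, 3, 6], ![0, 2, 1, 5, 3, 4, 6]),
   (91, 55, ![0, 1, 2, 3, 5, 4, 6], ![0, 1, 2, 3, 5, 4, 6]),
   (92, 58, ![0, 1, 2, 4, 5, 3, 6], ![0, 1, 2, 5, 3, 4, 6]),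
   (95, 63, ![0, 1, 2, 3, 5, 4, 6], ![0, 1, 2, 3, 5, 4, 6]),
   (96, 3, ![0, 4, 1, 5, 2, 3, 6], ![0, 2, 4, 5, 1, 3, 6]),
   (98, 28, ![0, 2, 1, 3, 4, 5, 6], ![0, 2, 1, 3, 4, 5, 6]),
   (100, 22, ![0, 2, 1, 5, 3, 4, 6], ![0, 2, 1, 4, 5, 3, 6]),
   (102, 58, ![0, 1, 2, 5, 3, 4, 6], ![0, 1, 2, 4, 5, 3, 6]),
   (104, 22, ![0, 2, 1, 5, 4, 3, 6], ![0, 2, 1, 5, 4, 3, 6]),
   (106, 58, ![0, 1, 2, 5, 4, 3, 6], ![0, 1, 2, 5, 4, 3, 6]),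
   (109, 55, ![0, 1, 2, 5, 3, 4, 6], ![0, 1, 2, 4, 5, 3, 6]),
   (111, 63, ![0, 1, 2, 5, 3, 4, 6], ![0, 1, 2, 4, 5, 3, 6]),
   (112, 7, ![0, 5, 1, 2, 3, 4, 6], ![0, 2, 3, 4, 5, 1, 6]),
   (114, 30, ![0, 2, 1, 3, 4, 5, 6], ![0, 2, 1, 3, 4, 5, 6]),
   (116, 30, ![0, 2, 1, 4, 3, 5, 6], ![0, 2, 1, 4, 3, 5, 6]),
   (120, 30, ![0, 2, 1, 4, 5, 3, 6], ![0, 2, 1, 5, 3, 4, 6]),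
   (127, 127, ![0, 1, 2, 3, 4, 5, 6], ![0, 1, 2, 3, 4, 5, 6]),
   (128, 1, ![0, 3, 4, 1, 2, 5, 6], ![0, 3, 4, 1, 2, 5, 6]),
   (129, 20, ![0, 1, 4, 2, 3, 5, 6], ![0, 1, 3, 4, 2, 5, 6]),
   (132, 18, ![0, 1, 4, 2, 3, 5, 6], ![0, 1, 3, 4, 2, 5, 6]),
   (133, 22, ![0, 1, 4, 2, 3, 5, 6], ![0, 1, 3, 4, 2, 5, 6]),
   (134, 19, ![0, 1, 4, 2, 3, 5, 6], ![0, 1, 3, 4, 2, 5, 6]),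
   (135, 23, ![0, 1, 4, 2, 3, 5, 6], ![0, 1, 3, 4, 2, 5, 6]),
   (136, 20, ![0, 1, 5, 2, 3, 4, 6], ![0, 1, 3, 4, 5, 2, 6]),
   (137, 28, ![0, 1, 4, 2, 3, 5, 6], ![0, 1, 3, 4, 2, 5, 6]),
   (140, 22, ![0, 1, 5, 2, 3, 4, 6], ![0, 1, 3, 4, 5, 2, 6]),
   (141, 30, ![0, 1, 4, 2, 3, 5, 6], ![0, 1, 3, 4, 2, 5, 6]),
   (142, 23, ![0, 1, 5, 2, 3, 4, 6], ![0, 1, 3, 4, 5, 2, 6]),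
   (143, 31, ![0, 1, 4, 2, 3, 5, 6], ![0, 1, 3, 4, 2, 5, 6]),
   (160, 18, ![0, 4, 1, 2, 3, 5, 6], ![0, 2, 3, 4, 1, 5, 6]),
   (164, 164, ![0, 1, 2, 3, 4, 5, 6], ![0, 1, 2, 3, 4, 5, 6]),
   (165, 165, ![0, 1, 2, 3, 4, 5, 6], ![0, 1, 2, 3, 4, 5, 6]),
   (166, 165, ![0, 1, 3, 2, 4, 5, 6], ![0, 1, 3, 2, 4, 5, 6]),
   (167, 167, ![0, 1, 2, 3, 4, 5, 6], ![0, 1, 2, 3, 4, 5, 6]),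
   (168, 168, ![0, 1, 2, 3, 4, 5, 6], ![0, 1, 2, 3, 4, 5, 6]),
   (172, 172, ![0, 1, 2, 3, 4, 5, 6], ![0, 1, 2, 3, 4, 5, 6]),
   (173, 173, ![0, 1, 2, 3, 4, 5, 6], ![0, 1, 2, 3, 4, 5, 6]),
   (174, 173, ![0, 1, 3, 2, 4, 5, 6], ![0, 1, 3, 2, 4, 5, 6]),
   (175, 175, ![0, 1, 2, 3, 4, 5, 6], ![0, 1, 2, 3, 4, 5, 6]),
   (176, 19, ![0, 4, 1, 2, 3, 5, 6], ![0, 2, 3, 4, 1, 5, 6]),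
   (180, 165, ![0, 3, 1, 2, 4, 5, 6], ![0, 2, 3, 1, 4, 5, 6]),
   (182, 182, ![0, 1, 2, 3, 4, 5, 6], ![0, 1, 2, 3, 4, 5, 6]),
   (183, 183, ![0, 1, 2, 3, 4, 5, 6], ![0, 1, 2, 3, 4, 5, 6]),
   (184, 184, ![0, 1, 2, 3, 4, 5, 6], ![0, 1, 2, 3, 4, 5, 6]),
   (188, 188, ![0, 1, 2, 3, 4, 5, 6], ![0, 1, 2, 3, 4, 5, 6]),
   (190, 190, ![0, 1, 2, 3, 4, 5, 6], ![0, 1, 2, 3, 4, 5, 6]),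
   (191, 191, ![0, 1, 2, 3, 4, 5, 6], ![0, 1, 2, 3, 4, 5, 6]),
   (192, 20, ![0, 5, 1, 2, 3, 4, 6], ![0, 2, 3, 4, 5, 1, 6]),
   (196, 168, ![0, 2, 1, 3, 4, 5, 6], ![0, 2, 1, 3, 4, 5, 6]),
   (198, 184, ![0, 2, 1, 3, 4, 5, 6], ![0, 2, 1, 3, 4, 5, 6]),
   (200, 168, ![0, 2, 3, 1, 5, 4, 6], ![0, 3, 1, 2, 5, 4, 6]),
   (201, 184, ![0, 2, 3, 1, 5, 4, 6], ![0, 3, 1, 2, 5, 4, 6]),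
   (204, 204, ![0, 1, 2, 3, 4, 5, 6], ![0, 1, 2, 3, 4, 5, 6]),
   (205, 205, ![0, 1, 2, 3, 4, 5, 6], ![0, 1, 2, 3, 4, 5, 6]),
   (206, 205, ![0, 1, 3, 2, 5, 4, 6], ![0, 1, 3, 2, 5, 4, 6]),
   (207, 207, ![0, 1, 2, 3, 4, 5, 6], ![0, 1, 2, 3, 4, 5, 6]),
   (224, 22, ![0, 5, 1, 2, 3, 4, 6], ![0, 2, 3, 4, 5, 1, 6]),
   (228, 172, ![0, 2, 1, 3, 4, 5, 6], ![0, 2, 1, 3, 4, 5, 6]),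
   (230, 188, ![0, 2, 1, 3, 4, 5, 6], ![0, 2, 1, 3, 4, 5, 6]),
   (232, 204, ![0, 2, 1, 3, 4, 5, 6], ![0, 2, 1, 3, 4, 5, 6]),
   (237, 237, ![0, 1, 2, 3, 4, 5, 6], ![0, 1, 2, 3, 4, 5, 6]),
   (239, 239, ![0, 1, 2, 3, 4, 5, 6], ![0, 1, 2, 3, 4, 5, 6]),
   (240, 23, ![0, 5, 1, 2, 3, 4, 6], ![0, 2, 3, 4, 5, 1, 6]),
   (244, 173, ![0, 3, 1, 2, 4, 5, 6], ![0, 2, 3, 1, 4, 5, 6]),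
   (246, 190, ![0, 2, 1, 3, 4, 5, 6], ![0, 2, 1, 3, 4, 5, 6]),
   (248, 205, ![0, 3, 1, 2, 5, 4, 6], ![0, 2, 3, 1, 5, 4, 6]),
   (255, 255, ![0, 1, 2, 3, 4, 5, 6], ![0, 1, 2, 3, 4, 5, 6]),
   (256, 1, ![0, 3, 4, 1, 5, 2, 6], ![0, 3, 5, 1, 2, 4, 6]),
   (257, 20, ![0, 1, 4, 2, 5, 3, 6], ![0, 1, 3, 5, 2, 4, 6]),
   (260, 20, ![0, 1, 5, 2, 4, 3, 6], ![0, 1, 3, 5, 4, 2, 6]),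
   (261, 28, ![0, 1, 4, 2, 5, 3, 6], ![0, 1, 3, 5, 2, 4, 6]),
   (264, 18, ![0, 1, 4, 2, 5, 3, 6], ![0, 1, 3, 5, 2, 4, 6]),
   (265, 22, ![0, 1, 4, 2, 5, 3, 6], ![0, 1, 3, 5, 2, 4, 6]),
   (266, 19, ![0, 1, 4, 2, 5, 3, 6], ![0, 1, 3, 5, 2, 4, 6]),
   (267, 23, ![0, 1, 4, 2, 5, 3, 6], ![0, 1, 3, 5, 2, 4, 6]),
   (268, 22, ![0, 1, 5, 2, 4, 3, 6], ![0, 1, 3, 5, 4, 2, 6]),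
   (269, 30, ![0, 1, 4, 2, 5, 3, 6], ![0, 1, 3, 5, 2, 4, 6]),
   (270, 23, ![0, 1, 5, 2, 4, 3, 6], ![0, 1, 3, 5, 4, 2, 6]),
   (271, 31, ![0, 1, 4, 2, 5, 3, 6], ![0, 1, 3, 5, 2, 4, 6]),
   (288, 20, ![0, 5, 1, 2, 4, 3, 6], ![0, 2, 3, 5, 4, 1, 6]),
   (292, 168, ![0, 2, 3, 1, 4, 5, 6], ![0, 3, 1, 2, 4, 5, 6]),
   (293, 184, ![0, 2, 3, 1, 4, 5, 6], ![0, 3, 1, 2, 4, 5, 6]),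
   (296, 168, ![0, 2, 1, 3, 5, 4, 6], ![0, 2, 1, 3, 5, 4, 6]),
   (298, 184, ![0, 2, 1, 3, 5, 4, 6], ![0, 2, 1, 3, 5, 4, 6]),
   (300, 204, ![0, 1, 2, 3, 5, 4, 6], ![0, 1, 2, 3, 5, 4, 6]),
   (301, 205, ![0, 1, 2, 3, 5, 4, 6], ![0, 1, 2, 3, 5, 4, 6]),
   (302, 205, ![0, 1, 3, 2, 4, 5, 6], ![0, 1, 3, 2, 4, 5, 6]),
   (303, 207, ![0, 1, 2, 3, 5, 4, 6], ![0, 1, 2, 3, 5, 4, 6]),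
   (320, 18, ![0, 4, 1, 2, 5, 3, 6], ![0, 2, 3, 5, 1, 4, 6]),
   (324, 168, ![0, 1, 2, 3, 5, 4, 6], ![0, 1, 2, 3, 5, 4, 6]),
   (328, 164, ![0, 1, 2, 3, 5, 4, 6], ![0, 1, 2, 3, 5, 4, 6]),
   (329, 165, ![0, 1, 2, 3, 5, 4, 6], ![0, 1, 2, 3, 5, 4, 6]),
   (330, 165, ![0, 1, 3, 2, 5, 4, 6], ![0, 1, 3, 2, 5, 4, 6]),
   (331, 167, ![0, 1, 2, 3, 5, 4, 6], ![0, 1, 2, 3, 5, 4, 6]),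
   (332, 172, ![0, 1, 2, 3, 5, 4, 6], ![0, 1, 2, 3, 5, 4, 6]),
   (333, 173, ![0, 1, 2, 3, 5, 4, 6], ![0, 1, 2, 3, 5, 4, 6]),
   (334, 173, ![0, 1, 3, 2, 5, 4, 6], ![0, 1, 3, 2, 5, 4, 6]),
   (335, 175, ![0, 1, 2, 3, 5, 4, 6], ![0, 1, 2, 3, 5, 4, 6]),
   (336, 19, ![0, 4, 1, 2, 5, 3, 6], ![0, 2, 3, 5, 1, 4, 6]),
   (340, 184, ![0, 1, 2, 3, 5, 4, 6], ![0, 1, 2, 3, 5, 4, 6]),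
   (344, 165, ![0, 3, 1, 2, 5, 4, 6], ![0, 2, 3, 1, 5, 4, 6]),
   (346, 182, ![0, 1, 2, 3, 5, 4, 6], ![0, 1, 2, 3, 5, 4, 6]),
   (347, 183, ![0, 1, 2, 3, 5, 4, 6], ![0, 1, 2, 3, 5, 4, 6]),
   (348, 188, ![0, 1, 2, 3, 5, 4, 6], ![0, 1, 2, 3, 5, 4, 6]),
   (350, 190, ![0, 1, 2, 3, 5, 4, 6], ![0, 1, 2, 3, 5, 4, 6]),
   (351, 191, ![0, 1, 2, 3, 5, 4, 6], ![0, 1, 2, 3, 5, 4, 6]),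
   (352, 22, ![0, 5, 1, 2, 4, 3, 6], ![0, 2, 3, 5, 4, 1, 6]),
   (356, 204, ![0, 2, 1, 3, 5, 4, 6], ![0, 2, 1, 3, 5, 4, 6]),
   (360, 172, ![0, 2, 1, 3, 5, 4, 6], ![0, 2, 1, 3, 5, 4, 6]),
   (362, 188, ![0, 2, 1, 3, 5, 4, 6], ![0, 2, 1, 3, 5, 4, 6]),
   (365, 237, ![0, 1, 2, 3, 5, 4, 6], ![0, 1, 2, 3, 5, 4, 6]),
   (367, 239, ![0, 1, 2, 3, 5, 4, 6], ![0, 1, 2, 3, 5, 4, 6]),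
   (368, 23, ![0, 5, 1, 2, 4, 3, 6], ![0, 2, 3, 5, 4, 1, 6]),
   (372, 205, ![0, 3, 1, 2, 4, 5, 6], ![0, 2, 3, 1, 4, 5, 6]),
   (376, 173, ![0, 3, 1, 2, 5, 4, 6], ![0, 2, 3, 1, 5, 4, 6]),
   (378, 190, ![0, 2, 1, 3, 5, 4, 6], ![0, 2, 1, 3, 5, 4, 6]),
   (383, 255, ![0, 1, 2, 3, 5, 4, 6], ![0, 1, 2, 3, 5, 4, 6]),
   (384, 3, ![0, 4, 5, 1, 2, 3, 6], ![0, 3, 4, 5, 1, 2, 6]),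
   (385, 28, ![0, 2, 3, 1, 4, 5, 6], ![0, 3, 1, 2, 4, 5, 6]),
   (388, 22, ![0, 2, 5, 1, 3, 4, 6], ![0, 3, 1, 4, 5, 2, 6]),
   (389, 58, ![0, 1, 5, 2, 3, 4, 6], ![0, 1, 3, 4, 5, 2, 6]),
   (392, 22, ![0, 2, 5, 1, 4, 3, 6], ![0, 3, 1, 5, 4, 2, 6]),
   (393, 58, ![0, 1, 5, 2, 4, 3, 6], ![0, 1, 3, 5, 4, 2, 6]),
   (398, 55, ![0, 1, 5, 2, 3, 4, 6], ![0, 1, 3, 4, 5, 2, 6]),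
   (399, 63, ![0, 1, 5, 2, 3, 4, 6], ![0, 1, 3, 4, 5, 2, 6]),
   (416, 22, ![0, 5, 2, 1, 3, 4, 6], ![0, 3, 2, 4, 5, 1, 6]),
   (420, 172, ![0, 2, 3, 1, 4, 5, 6], ![0, 3, 1, 2, 4, 5, 6]),
   (421, 188, ![0, 2, 3, 1, 4, 5, 6], ![0, 3, 1, 2, 4, 5, 6]),
   (424, 204, ![0, 2, 3, 1, 4, 5, 6], ![0, 3, 1, 2, 4, 5, 6]),
   (430, 237, ![0, 1, 3, 2, 4, 5, 6], ![0, 1, 3, 2, 4, 5, 6]),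
   (431, 239, ![0, 1, 3, 2, 4, 5, 6], ![0, 1, 3, 2, 4, 5, 6]),
   (448, 22, ![0, 5, 2, 1, 4, 3, 6], ![0, 3, 2, 5, 4, 1, 6]),
   (452, 204, ![0, 2, 3, 1, 5, 4, 6], ![0, 3, 1, 2, 5, 4, 6]),
   (456, 172, ![0, 2, 3, 1, 5, 4, 6], ![0, 3, 1, 2, 5, 4, 6]),
   (457, 188, ![0, 2, 3, 1, 5, 4, 6], ![0, 3, 1, 2, 5, 4, 6]),
   (462, 237, ![0, 1, 3, 2, 5, 4, 6], ![0, 1, 3, 2, 5, 4, 6]),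
   (463, 239, ![0, 1, 3, 2, 5, 4, 6], ![0, 1, 3, 2, 5, 4, 6]),
   (496, 55, ![0, 5, 1, 2, 3, 4, 6], ![0, 2, 3, 4, 5, 1, 6]),
   (500, 237, ![0, 3, 1, 2, 4, 5, 6], ![0, 2, 3, 1, 4, 5, 6]),
   (504, 237, ![0, 3, 1, 2, 5, 4, 6], ![0, 2, 3, 1, 5, 4, 6]),
   (510, 510, ![0, 1, 2, 3, 4, 5, 6], ![0, 1, 2, 3, 4, 5, 6]),
   (511, 511, ![0, 1, 2, 3, 4, 5, 6], ![0, 1, 2, 3, 4, 5, 6]),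
   (512, 1, ![0, 3, 4, 5, 1, 2, 6], ![0, 4, 5, 1, 2, 3, 6]),
   (513, 20, ![0, 1, 4, 5, 2, 3, 6], ![0, 1, 4, 5, 2, 3, 6]),
   (514, 20, ![0, 1, 5, 4, 2, 3, 6], ![0, 1, 4, 5, 3, 2, 6]),
   (515, 28, ![0, 1, 4, 5, 2, 3, 6], ![0, 1, 4, 5, 2, 3, 6]),
   (520, 18, ![0, 1, 4, 5, 2, 3, 6], ![0, 1, 4, 5, 2, 3, 6]),
   (521, 22, ![0, 1, 4, 5, 2, 3, 6], ![0, 1, 4, 5, 2, 3, 6]),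
   (522, 22, ![0, 1, 5, 4, 2, 3, 6], ![0, 1, 4, 5, 3, 2, 6]),
   (523, 30, ![0, 1, 4, 5, 2, 3, 6], ![0, 1, 4, 5, 2, 3, 6]),
   (524, 19, ![0, 1, 4, 5, 2, 3, 6], ![0, 1, 4, 5, 2, 3, 6]),
   (525, 23, ![0, 1, 4, 5, 2, 3, 6], ![0, 1, 4, 5, 2, 3, 6]),
   (526, 23, ![0, 1, 5, 4, 2, 3, 6], ![0, 1, 4, 5, 3, 2, 6]),
   (527, 31, ![0, 1, 4, 5, 2, 3, 6], ![0, 1, 4, 5, 2, 3, 6]),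
   (528, 20, ![0, 5, 1, 4, 2, 3, 6], ![0, 2, 4, 5, 3, 1, 6]),
   (530, 168, ![0, 2, 3, 4, 1, 5, 6], ![0, 4, 1, 2, 3, 5, 6]),
   (531, 184, ![0, 2, 3, 4, 1, 5, 6], ![0, 4, 1, 2, 3, 5, 6]),
   (536, 168, ![0, 2, 1, 5, 3, 4, 6], ![0, 2, 1, 4, 5, 3, 6]),
   (538, 204, ![0, 1, 2, 5, 3, 4, 6], ![0, 1, 2, 4, 5, 3, 6]),
   (539, 205, ![0, 1, 2, 5, 3, 4, 6], ![0, 1, 2, 4, 5, 3, 6]),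
   (540, 184, ![0, 2, 1, 5, 3, 4, 6], ![0, 2, 1, 4, 5, 3, 6]),
   (542, 205, ![0, 1, 3, 4, 2, 5, 6], ![0, 1, 4, 2, 3, 5, 6]),
   (543, 207, ![0, 1, 2, 5, 3, 4, 6], ![0, 1, 2, 4, 5, 3, 6]),
   (576, 18, ![0, 4, 1, 5, 2, 3, 6], ![0, 2, 4, 5, 1, 3, 6]),
   (578, 168, ![0, 1, 2, 5, 3, 4, 6], ![0, 1, 2, 4, 5, 3, 6]),
   (584, 164, ![0, 1, 2, 5, 3, 4, 6], ![0, 1, 2, 4, 5, 3, 6]),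
   (585, 165, ![0, 1, 2, 5, 3, 4, 6], ![0, 1, 2, 4, 5, 3, 6]),
   (586, 172, ![0, 1, 2, 5, 3, 4, 6], ![0, 1, 2, 4, 5, 3, 6]),
   (587, 173, ![0, 1, 2, 5, 3, 4, 6], ![0, 1, 2, 4, 5, 3, 6]),
   (588, 165, ![0, 1, 3, 5, 2, 4, 6], ![0, 1, 4, 2, 5, 3, 6]),
   (589, 167, ![0, 1, 2, 5, 3, 4, 6], ![0, 1, 2, 4, 5, 3, 6]),
   (590, 173, ![0, 1, 3, 5, 2, 4, 6], ![0, 1, 4, 2, 5, 3, 6]),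
   (591, 175, ![0, 1, 2, 5, 3, 4, 6], ![0, 1, 2, 4, 5, 3, 6]),
   (592, 22, ![0, 5, 1, 4, 2, 3, 6], ![0, 2, 4, 5, 3, 1, 6]),
   (594, 204, ![0, 2, 1, 5, 3, 4, 6], ![0, 2, 1, 4, 5, 3, 6]),
   (600, 172, ![0, 2, 1, 5, 3, 4, 6], ![0, 2, 1, 4, 5, 3, 6]),
   (603, 237, ![0, 1, 2, 5, 3, 4, 6], ![0, 1, 2, 4, 5, 3, 6]),
   (604, 188, ![0, 2, 1, 5, 3, 4, 6], ![0, 2, 1, 4, 5, 3, 6]),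
   (607, 239, ![0, 1, 2, 5, 3, 4, 6], ![0, 1, 2, 4, 5, 3, 6]),
   (608, 19, ![0, 4, 1, 5, 2, 3, 6], ![0, 2, 4, 5, 1, 3, 6]),
   (610, 184, ![0, 1, 2, 5, 3, 4, 6], ![0, 1, 2, 4, 5, 3, 6]),
   (616, 165, ![0, 3, 1, 5, 2, 4, 6], ![0, 2, 4, 1, 5, 3, 6]),
   (618, 188, ![0, 1, 2, 5, 3, 4, 6], ![0, 1, 2, 4, 5, 3, 6]),
   (620, 182, ![0, 1, 2, 5, 3, 4, 6], ![0, 1, 2, 4, 5, 3, 6]),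
   (621, 183, ![0, 1, 2, 5, 3, 4, 6], ![0, 1, 2, 4, 5, 3, 6]),
   (622, 190, ![0, 1, 2, 5, 3, 4, 6], ![0, 1, 2, 4, 5, 3, 6]),
   (623, 191, ![0, 1, 2, 5, 3, 4, 6], ![0, 1, 2, 4, 5, 3, 6]),
   (624, 23, ![0, 5, 1, 4, 2, 3, 6], ![0, 2, 4, 5, 3, 1, 6]),
   (626, 205, ![0, 3, 1, 4, 2, 5, 6], ![0, 2, 4, 1, 3, 5, 6]),
   (632, 173, ![0, 3, 1, 5, 2, 4, 6], ![0, 2, 4, 1, 5, 3, 6]),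
   (636, 190, ![0, 2, 1, 5, 3, 4, 6], ![0, 2, 1, 4, 5, 3, 6]),
   (639, 255, ![0, 1, 2, 5, 3, 4, 6], ![0, 1, 2, 4, 5, 3, 6]),
   (768, 18, ![0, 4, 5, 1, 2, 3, 6], ![0, 3, 4, 5, 1, 2, 6]),
   (769, 168, ![0, 1, 5, 2, 3, 4, 6], ![0, 1, 3, 4, 5, 2, 6]),
   (776, 164, ![0, 1, 5, 2, 3, 4, 6], ![0, 1, 3, 4, 5, 2, 6]),
   (777, 172, ![0, 1, 5, 2, 3, 4, 6], ![0, 1, 3, 4, 5, 2, 6]),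
   (778, 165, ![0, 1, 5, 2, 3, 4, 6], ![0, 1, 3, 4, 5, 2, 6]),
   (779, 173, ![0, 1, 5, 2, 3, 4, 6], ![0, 1, 3, 4, 5, 2, 6]),
   (780, 165, ![0, 1, 5, 3, 2, 4, 6], ![0, 1, 4, 3, 5, 2, 6]),
   (781, 173, ![0, 1, 5, 3, 2, 4, 6], ![0, 1, 4, 3, 5, 2, 6]),
   (782, 167, ![0, 1, 5, 2, 3, 4, 6], ![0, 1, 3, 4, 5, 2, 6]),
   (783, 175, ![0, 1, 5, 2, 3, 4, 6], ![0, 1, 3, 4, 5, 2, 6]),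
   (832, 164, ![0, 5, 1, 2, 3, 4, 6], ![0, 2, 3, 4, 5, 1, 6]),
   (840, 840, ![0, 1, 2, 3, 4, 5, 6], ![0, 1, 2, 3, 4, 5, 6]),
   (841, 841, ![0, 1, 2, 3, 4, 5, 6], ![0, 1, 2, 3, 4, 5, 6]),
   (842, 841, ![0, 1, 3, 2, 4, 5, 6], ![0, 1, 3, 2, 4, 5, 6]),
   (843, 843, ![0, 1, 2, 3, 4, 5, 6], ![0, 1, 2, 3, 4, 5, 6]),
   (844, 841, ![0, 1, 3, 4, 2, 5, 6], ![0, 1, 4, 2, 3, 5, 6]),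
   (845, 843, ![0, 1, 2, 4, 3, 5, 6], ![0, 1, 2, 4, 3, 5, 6]),
   (846, 843, ![0, 1, 4, 2, 3, 5, 6], ![0, 1, 3, 4, 2, 5, 6]),
   (847, 847, ![0, 1, 2, 3, 4, 5, 6], ![0, 1, 2, 3, 4, 5, 6]),
   (848, 165, ![0, 5, 1, 2, 3, 4, 6], ![0, 2, 3, 4, 5, 1, 6]),
   (856, 841, ![0, 3, 1, 2, 4, 5, 6], ![0, 2, 3, 1, 4, 5, 6]),
   (858, 858, ![0, 1, 2, 3, 4, 5, 6], ![0, 1, 2, 3, 4, 5, 6]),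
   (859, 859, ![0, 1, 2, 3, 4, 5, 6], ![0, 1, 2, 3, 4, 5, 6]),
   (860, 860, ![0, 1, 2, 3, 4, 5, 6], ![0, 1, 2, 3, 4, 5, 6]),
   (862, 862, ![0, 1, 2, 3, 4, 5, 6], ![0, 1, 2, 3, 4, 5, 6]),
   (863, 863, ![0, 1, 2, 3, 4, 5, 6], ![0, 1, 2, 3, 4, 5, 6]),
   (864, 165, ![0, 5, 1, 3, 2, 4, 6], ![0, 2, 4, 3, 5, 1, 6]),
   (872, 841, ![0, 3, 1, 4, 2, 5, 6], ![0, 2, 4, 1, 3, 5, 6]),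
   (874, 860, ![0, 1, 2, 4, 3, 5, 6], ![0, 1, 2, 4, 3, 5, 6]),
   (876, 858, ![0, 1, 2, 4, 3, 5, 6], ![0, 1, 2, 4, 3, 5, 6]),
   (877, 859, ![0, 1, 2, 4, 3, 5, 6], ![0, 1, 2, 4, 3, 5, 6]),
   (878, 862, ![0, 1, 2, 4, 3, 5, 6], ![0, 1, 2, 4, 3, 5, 6]),
   (879, 863, ![0, 1, 2, 4, 3, 5, 6], ![0, 1, 2, 4, 3, 5, 6]),
   (880, 167, ![0, 5, 1, 2, 3, 4, 6], ![0, 2, 3, 4, 5, 1, 6]),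
   (888, 843, ![0, 4, 1, 2, 3, 5, 6], ![0, 2, 3, 4, 1, 5, 6]),
   (890, 862, ![0, 2, 1, 3, 4, 5, 6], ![0, 2, 1, 3, 4, 5, 6]),
   (892, 862, ![0, 2, 1, 4, 3, 5, 6], ![0, 2, 1, 4, 3, 5, 6]),
   (895, 895, ![0, 1, 2, 3, 4, 5, 6], ![0, 1, 2, 3, 4, 5, 6]),
   (896, 19, ![0, 4, 5, 1, 2, 3, 6], ![0, 3, 4, 5, 1, 2, 6]),
   (897, 184, ![0, 1, 5, 2, 3, 4, 6], ![0, 1, 3, 4, 5, 2, 6]),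
   (904, 165, ![0, 3, 5, 1, 2, 4, 6], ![0, 3, 4, 1, 5, 2, 6]),
   (905, 188, ![0, 1, 5, 2, 3, 4, 6], ![0, 1, 3, 4, 5, 2, 6]),
   (908, 182, ![0, 1, 5, 2, 3, 4, 6], ![0, 1, 3, 4, 5, 2, 6]),
   (909, 190, ![0, 1, 5, 2, 3, 4, 6], ![0, 1, 3, 4, 5, 2, 6]),
   (910, 183, ![0, 1, 5, 2, 3, 4, 6], ![0, 1, 3, 4, 5, 2, 6]),
   (911, 191, ![0, 1, 5, 2, 3, 4, 6], ![0, 1, 3, 4, 5, 2, 6]),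
   (960, 165, ![0, 5, 3, 1, 2, 4, 6], ![0, 3, 4, 2, 5, 1, 6]),
   (968, 841, ![0, 3, 4, 1, 2, 5, 6], ![0, 3, 4, 1, 2, 5, 6]),
   (969, 860, ![0, 1, 4, 2, 3, 5, 6], ![0, 1, 3, 4, 2, 5, 6]),
   (972, 858, ![0, 1, 4, 2, 3, 5, 6], ![0, 1, 3, 4, 2, 5, 6]),
   (973, 862, ![0, 1, 4, 2, 3, 5, 6], ![0, 1, 3, 4, 2, 5, 6]),
   (974, 859, ![0, 1, 4, 2, 3, 5, 6], ![0, 1, 3, 4, 2, 5, 6]),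
   (975, 863, ![0, 1, 4, 2, 3, 5, 6], ![0, 1, 3, 4, 2, 5, 6]),
   (992, 182, ![0, 5, 1, 2, 3, 4, 6], ![0, 2, 3, 4, 5, 1, 6]),
   (1000, 858, ![0, 4, 1, 2, 3, 5, 6], ![0, 2, 3, 4, 1, 5, 6]),
   (1004, 1004, ![0, 1, 2, 3, 4, 5, 6], ![0, 1, 2, 3, 4, 5, 6]),
   (1005, 1005, ![0, 1, 2, 3, 4, 5, 6], ![0, 1, 2, 3, 4, 5, 6]),
   (1006, 1005, ![0, 1, 3, 2, 4, 5, 6], ![0, 1, 3, 2, 4, 5, 6]),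
   (1007, 1007, ![0, 1, 2, 3, 4, 5, 6], ![0, 1, 2, 3, 4, 5, 6]),
   (1008, 183, ![0, 5, 1, 2, 3, 4, 6], ![0, 2, 3, 4, 5, 1, 6]),
   (1016, 859, ![0, 4, 1, 2, 3, 5, 6], ![0, 2, 3, 4, 1, 5, 6]),
   (1020, 1005, ![0, 3, 1, 2, 4, 5, 6], ![0, 2, 3, 1, 4, 5, 6]),
   (1022, 1022, ![0, 1, 2, 3, 4, 5, 6], ![0, 1, 2, 3, 4, 5, 6]),
   (1023, 1023, ![0, 1, 2, 3, 4, 5, 6], ![0, 1, 2, 3, 4, 5, 6])]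

/-- Boolean form of `Valid`. -/
def validB (T : Fin 7 → Fin 7 → Bool) : Bool :=
  ((List.finRange 7).all fun i => (List.finRange 7).all fun j =>
    !T i j || (List.finRange 7).all fun k => !T j k || T i k) &&
  ((List.finRange 7).all fun i => (List.finRange 7).all fun j => (List.finRange 7).any fun k =>
    T i k && T j k && (List.finRange 7).all fun l => !(T i l && T j l) || T k l)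

theorem validB_of_valid {T : Fin 7 → Fin 7 → Bool} (h : Valid T) : validB T = true := by
  obtain ⟨h1, h2⟩ := h
  simp only [validB, Bool.and_eq_true, List.all_eq_true, List.any_eq_true, List.mem_finRange,
    true_and, forall_const, Bool.or_eq_true, Bool.not_eq_eq_eq_not, Bool.not_true]
  refine ⟨fun i j => ?_, fun i j => ?_⟩
  · by_cases hij : T i j = true
    · refine Or.inr fun k => ?_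
      by_cases hjk : T j k = true
      · exact Or.inr (h1 i j k hij hjk)
      · exact Or.inl (by simpa using hjk)
    · exact Or.inl (by simpa using hij)
  · obtain ⟨k, hk1, hk2, hk3⟩ := h2 i j
    refine ⟨k, ⟨hk1, hk2⟩, fun l => ?_⟩
    by_cases hl : T i l = true ∧ T j l = true
    · exact Or.inr (hk3 l hl.1 hl.2)
    · refine Or.inl ?_
      by_cases h3 : T i l = true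
      · have h4 : T j l = false := by simpa using fun h => hl ⟨h3, h⟩
        simp [h4]
      · have h4 : T i l = false := by simpa using h3
        simp [h4]

/-- The entry `p` of the list witnesses that the table with code `c` is a relabelling of a listed
table. -/
def goodB (c : ℕ) (p : ℕ × ℕ × (Fin 7 → Fin 7) × (Fin 7 → Fin 7)) : Bool :=
  p.1 == c && codes.contains p.2.1 &&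
    ((List.finRange 7).all fun i => p.2.2.2 (p.2.2.1 i) == i && p.2.2.1 (p.2.2.2 i) == i) &&
    ((List.finRange 7).all fun i => (List.finRange 7).all fun j =>
      mk7 (bitsOf c) i j == mk7 (bitsOf p.2.1) (p.2.2.1 i) (p.2.2.1 j))

/-- The table with code `c`, packed into the binary digits of one number. -/
def maskOf (c : ℕ) : ℕ :=
  284795138548095 + ((c &&& 15) <<< 9) + (((c >>> 4) &&& 7) <<< 17) + (((c >>> 7) &&& 3) <<< 25) +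
    (((c >>> 9) &&& 1) <<< 33)

/-- The table with code `c`, read off from the packed form. -/
def tab (c : ℕ) : Fin 7 → Fin 7 → Bool := fun i j => (maskOf c).testBit (7 * i.1 + j.1)

/-- The two forms of the table agree for the codes `a, ..., a + 127`. -/
def tabChunk (a : ℕ) : Bool :=
  (List.range 128).all fun c => (List.finRange 7).all fun i => (List.finRange 7).all fun j =>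
    mk7 (bitsOf (a + c)) i j == tab (a + c) i j

/-- The check for the codes `a, ..., a + 31`. -/
def chunk (a : ℕ) : Bool :=
  (List.range 32).all fun c => !validB (tab (a + c)) || relabel.any (goodB (a + c))

end Vale.Agent.P183
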